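import Vale.Agent.P166.Haar2.CascValue.Rec
import Vale.Agent.P166.Haar2.Statements

/-!
The closed form of the demotion weight on a cascade.
-/

noncomputable section

open MeasureTheory ProbabilityTheory
open scoped BigOperators

namespace Vale.Agent.P166.Haar2

open Vale.Agent.P157 (gam dot)
open Vale.Agent.P157.Parisi (level weight siteValue)
open Vale.Agent.P157.Parisi.Site (Grow grow_logCosh)
open Vale.Agent.P157.Parisi.Full (logCosh)
open CascValue

namespace CascValue

variable {D : Type} [Fintype D] {r : ℕ}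

lemma integral_coordPot (θ β γ : ℝ) (m : Fin r → ℝ) (P : El r) {v : ℝ} (hv : 0 ≤ v) :
    Integrable (fun g => coordPot θ β γ m P (Real.sqrt v * g)) (gaussianReal 0 1) ∧
      ∫ g, coordPot θ β γ m P (Real.sqrt v * g) ∂gaussianReal 0 1 =
        cst θ β γ m P - θ * v / (2 * den θ m P 0) := by
  have hm : MemLp (fun g : ℝ => g) 2 (gaussianReal 0 1) := memLp_id_gaussianReal 2
  have h2 := hm.integrable_sq
  have h1 : Integrable (fun g : ℝ => g) (gaussianReal 0 1) :=
    memLp_one_iff_integrable.1 (memLp_id_gaussianReal' 1 ENNReal.one_ne_top)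
  have e2 : ∫ g, g ^ 2 ∂gaussianReal 0 1 = 1 := by
    have h := variance_eq_sub hm
    rw [variance_fun_id_gaussianReal, integral_id_gaussianReal] at h
    simp only [Pi.pow_apply, NNReal.coe_one] at h
    linarith
  have e : ∀ g, coordPot θ β γ m P (Real.sqrt v * g) =
      (cst θ β γ m P + γ * Real.sqrt v / den θ m P 0 * g) +
        -(θ * v / (2 * den θ m P 0)) * g ^ 2 := fun g => by
    simp only [coordPot, mul_pow, Real.sq_sqrt hv]
    ring
  simp only [e]
  refine ⟨((integrable_const _).fun_add (h1.const_mul _)).fun_add (h2.const_mul _), ?_⟩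
  rw [integral_add ((integrable_const _).fun_add (h1.const_mul _)) (h2.const_mul _),
    integral_add (integrable_const _) (h1.const_mul _), integral_const_mul, integral_const_mul,
    integral_const, probReal_univ, one_smul, integral_id_gaussianReal, e2]
  ring

/-- The mean logarithm of the weight on a cascade. -/
theorem cascV_wgtX (θ β γ : D → ℝ) (hθ : ∀ d, 0 ≤ θ d) (hβγ : ∀ d, β d * γ d = 0)
    {m : Fin r → ℝ} (hm : ∀ i, 0 < m i) (P : D → El r) (hP : ∀ d, (P d).IsCov) :
    cascV m P (wgtX θ β γ) =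
      (∑ d, (quadV m (θ d) (P d) + β d ^ 2 / 2 * (dampEl m (θ d) (P d)).s +
        γ d ^ 2 / 2 * ((dampEl m (θ d) (P d)).s -
          ∑ p, weight m p * (dampEl m (θ d) (P d)).v p))) +
        siteValue m (fun p => ∑ d, β d ^ 2 * (dampEl m (θ d) (P d)).v p) := by
  set ρ : Fin (r + 1) → ℝ := fun p => ∑ d, β d ^ 2 * (dampEl m (θ d) (P d)).v p with hρd
  have hP' : ∀ d, Monotone (P d).v ∧ (P d).v (Fin.last r) ≤ (P d).s :=
    fun d => ⟨(hP d).mono, (hP d).le⟩
  have hinc : ∀ d i, inc (dampEl m (θ d) (P d)).v i = dinc (θ d) m (P d) i := fun d =>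
    dampEl_inc (hθ d) hm (hP d).mono (hP d).le
  have htop : ∀ d, (dampEl m (θ d) (P d)).s - (dampEl m (θ d) (P d)).v (Fin.last r) =
      dtop (θ d) m (P d) := fun d => dampEl_top (hθ d) hm (hP d).mono (hP d).le
  have hρ : ∀ i, inc ρ i = ∑ d, β d ^ 2 * dinc (θ d) m (P d) i := fun i => by
    simp only [inc, hρd, ← Finset.sum_sub_distrib, ← mul_sub]
    exact Finset.sum_congr rfl fun d _ => by rw [← hinc]; rfl
  obtain ⟨A, hL⟩ := Grow.level hm ρ grow_logCosh
  change Grow A (level m ρ logCosh 0) at hL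
  set L := level m ρ logCosh 0 with hLd
  set w : D → ℝ := fun d => β d * Real.sqrt ((P d).v 0) / den (θ d) m (P d) 0 with hw
  have hlog : ∀ g : D → ℝ, Real.log (Vale.Agent.P168.genNested (gam D) m fun η =>
      ∫ e, wgtX θ β γ (casField P g η e) ∂gam D) =
      (∑ d, coordPot (θ d) (β d) (γ d) m (P d) (Real.sqrt ((P d).v 0) * g d)) +
        L (0 + dot g w) := fun g => by
    have h := genNested_wgtX θ β γ hθ hβγ hm P hP' ρ hρ (fun d => Real.sqrt ((P d).v 0) * g d)
    have hf : ∀ η e, casField P g η e = fun d => Real.sqrt ((P d).v 0) * g d +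
        (∑ p : Fin r, Real.sqrt (inc (P d).v p) * η p d) +
        Real.sqrt ((P d).s - (P d).v (Fin.last r)) * e d := fun η e => rfl
    simp only [hf]
    rw [h, Real.log_exp]
    congr 2
    rw [zero_add, dot]
    exact Finset.sum_congr rfl fun d _ => by simp only [hw]; ring
  have hv := fun d => integral_coordPot (θ d) (β d) (γ d) m (P d) (hP d).nonneg
  have hi : ∀ d, Integrable (fun g : D → ℝ =>
      coordPot (θ d) (β d) (γ d) m (P d) (Real.sqrt ((P d).v 0) * g d)) (gam D) :=
    fun d => integrable_comp_eval (μ := fun _ : D => gaussianReal 0 1) (i := d) (hv d).1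
  have hLi : Integrable (fun g : D → ℝ => L (0 + dot g w)) (gam D) := by
    have hb : Integrable (fun g : D → ℝ => A + ∑ d, |w d| * |g d|) (gam D) :=
      (integrable_const _).add (integrable_finsetSum _ fun d _ =>
        (integrable_comp_eval (μ := fun _ : D => gaussianReal 0 1) (i := d)
          (f := fun z : ℝ => |z|)
          (memLp_one_iff_integrable.1 (memLp_id_gaussianReal' 1 ENNReal.one_ne_top)).abs).const_mul _)
    refine hb.mono' (hL.meas.comp (by unfold dot; fun_prop)).aestronglyMeasurable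
      (ae_of_all _ fun g => ?_)
    rw [Real.norm_eq_abs, abs_of_nonneg (hL.nonneg _)]
    refine (hL.le _).trans (add_le_add le_rfl ?_)
    rw [zero_add, dot]
    refine (Finset.abs_sum_le_sum_abs _ _).trans (Finset.sum_le_sum fun d _ => ?_)
    rw [abs_mul, mul_comm]
  have hρ0 : ∑ d, w d ^ 2 = ρ 0 := Finset.sum_congr rfl fun d _ => by
    simp only [hw, dampEl_zero, div_pow, mul_pow, Real.sq_sqrt (hP d).nonneg]
    ring
  simp only [cascV, hlog]
  rw [integral_add (integrable_finsetSum _ fun d _ => hi d) hLi,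
    integral_finsetSum _ fun d _ => hi d, Vale.Agent.P157.Parisi.Full.integral_form w hL.meas 0,
    hρ0]
  have he : ∀ d, ∫ g : D → ℝ, coordPot (θ d) (β d) (γ d) m (P d)
      (Real.sqrt ((P d).v 0) * g d) ∂gam D =
      cst (θ d) (β d) (γ d) m (P d) - θ d * (P d).v 0 / (2 * den (θ d) m (P d) 0) := fun d => by
    rw [← (hv d).2]
    exact integral_comp_eval (μ := fun _ : D => gaussianReal 0 1) (i := d)
      (hv d).1.aestronglyMeasurable
  have hs : Vale.Agent.P157.Parisi.Site.spread (ρ 0) L 0 =
      siteValue m ρ + ρ (Fin.last r) / 2 := by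
    simp only [Vale.Agent.P157.Parisi.Site.spread, zero_add, siteValue, hLd]
    rw [sub_add_cancel]
    rfl
  rw [hs, Finset.sum_congr rfl fun d _ => he d, add_comm (siteValue m ρ), ← add_assoc]
  congr 1
  simp only [hρd, Finset.sum_div, ← Finset.sum_add_distrib]
  refine Finset.sum_congr rfl fun d _ => ?_
  have hw' : ∑ p, weight m p * (dampEl m (θ d) (P d)).v p =
      (dampEl m (θ d) (P d)).v (Fin.last r) - ∑ i, m i * dinc (θ d) m (P d) i := by
    simp only [sum_weight_mul, hinc]
  have hq : quadV m (θ d) (P d) = -(1 / 2) * (Real.log (den (θ d) m (P d) (Fin.last r)) +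
      (∑ i : Fin r, (Real.log (den (θ d) m (P d) i.castSucc) -
        Real.log (den (θ d) m (P d) i.succ)) / m i) +
      θ d / den (θ d) m (P d) 0 * (P d).v 0) := rfl
  rw [hw', hq, cst, ← htop d]
  ring

end CascValue

theorem cascValue : CascValueStmt := by
  intro K r m hm P E hP hE θ b κ lin hθ hκ
  have hX : stepX θ b κ lin = wgtX (Sum.elim θ fun _ : Fin 1 => κ)
      (Sum.elim b fun _ : Fin 1 => if lin then 0 else Real.sqrt κ)
      (Sum.elim (fun _ => 0) fun _ : Fin 1 => if lin then Real.sqrt κ else 0) := by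
    funext z
    simp only [stepX, wgtX, Fintype.sum_sum_type, Sum.elim_inl, Sum.elim_inr, Fin.sum_univ_one,
      zero_mul, add_zero, neg_div, Finset.sum_neg_distrib, Finset.sum_div]
    cases lin <;> simp <;> ring_nf <;> exact Or.inl trivial
  rw [hX, cascV_wgtX _ _ _ (by rintro (j | j) <;> simp [hθ, hκ])
    (by rintro (j | j) <;> cases lin <;> simp) hm.pos _ (by rintro (j | j) <;> simp [hP, hE])]
  simp only [Fintype.sum_sum_type, Sum.elim_inl, Sum.elim_inr, Fin.sum_univ_one, add_div,
    Finset.sum_div, Finset.sum_add_distrib]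
  cases lin <;> simp [Real.sq_sqrt hκ, mul_pow, Finset.sum_div, div_mul_eq_mul_div] <;> ring

end Vale.Agent.P166.Haar2
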