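import Vale.Agent.P166.Haar2.Alg

/-!
The eigenvalues along a covariance path and the covariance path left by a damped coordinate.
-/

noncomputable section

open MeasureTheory
open scoped BigOperators

namespace Vale.Agent.P166.Haar2.CascValue

open Vale.Agent.P157.Parisi (weight)

variable {r : ℕ}

/-- The increment of a path. -/
def inc (v : Fin (r + 1) → ℝ) (i : Fin r) : ℝ := v i.succ - v i.castSucc

/-- The path seen from the first level. -/
def tailEl (P : El (r + 1)) : El r := ⟨P.s, Fin.tail P.v⟩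

/-- The denominator of a damped coordinate. -/
def den (θ : ℝ) (m : Fin r → ℝ) (P : El r) (p : Fin (r + 1)) : ℝ := 1 + θ * El.eig m P p

/-- The increment of the damped path. -/
def dinc (θ : ℝ) (m : Fin r → ℝ) (P : El r) (i : Fin r) : ℝ :=
  inc P.v i / (den θ m P i.castSucc * den θ m P i.succ)

/-- The variance below the last level of the damped path. -/
def dtop (θ : ℝ) (m : Fin r → ℝ) (P : El r) : ℝ :=
  (P.s - P.v (Fin.last r)) / den θ m P (Fin.last r)

lemma sum_weight_mul (m : Fin r → ℝ) (c : Fin (r + 1) → ℝ) :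
    ∑ p, weight m p * c p = c (Fin.last r) - ∑ i, m i * inc c i := by
  simp only [weight, inc, sub_mul, Finset.sum_sub_distrib, mul_sub]
  rw [Fin.sum_univ_castSucc fun p => (Fin.snoc m 1 : Fin (r + 1) → ℝ) p * c p,
    Fin.sum_univ_succ fun p => (Fin.cons 0 m : Fin (r + 1) → ℝ) p * c p]
  simp only [Fin.snoc_castSucc, Fin.snoc_last, Fin.cons_zero, Fin.cons_succ]
  ring

lemma eig_last (m : Fin r → ℝ) (P : El r) :
    El.eig m P (Fin.last r) = P.s - P.v (Fin.last r) := by
  have h : ∀ l : Fin (r + 1), (if Fin.last r < l then weight m l * P.v l else 0) = 0 := fun l =>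
    if_neg (not_lt.2 (Fin.le_last l))
  simp [El.eig, El.upMass, h]

lemma eig_castSucc (m : Fin r → ℝ) (P : El r) (i : Fin r) :
    El.eig m P i.castSucc = El.eig m P i.succ + m i * inc P.v i := by
  have h : ∀ l : Fin (r + 1), (if i.castSucc < l then weight m l * P.v l else 0) =
      (if i.succ < l then weight m l * P.v l else 0) +
        if l = i.succ then weight m l * P.v l else 0 := fun l => by
    by_cases h1 : l = i.succ
    · subst h1; simp
    · have h1' : (l : ℕ) ≠ i + 1 := fun e => h1 (Fin.ext (by simpa using e))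
      simp only [if_neg h1, add_zero, Fin.lt_def, Fin.val_castSucc, Fin.val_succ]
      exact if_congr (by omega) rfl rfl
  have hw : weight m i.succ = El.upMass m i.succ - m i := by
    simp [weight, El.upMass]
  have hu : El.upMass m i.castSucc = m i := by simp [El.upMass]
  simp only [El.eig, h, Finset.sum_add_distrib, Finset.sum_ite_eq', Finset.mem_univ, if_true, hw,
    hu, inc]
  ring

lemma eig_nonneg {m : Fin r → ℝ} (hm : ∀ i, 0 ≤ m i) {P : El r} (hmono : Monotone P.v)
    (hle : P.v (Fin.last r) ≤ P.s) (p : Fin (r + 1)) : 0 ≤ El.eig m P p := by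
  induction p using Fin.reverseInduction with
  | last => rw [eig_last]; exact sub_nonneg.2 hle
  | cast i ih =>
    rw [eig_castSucc]
    exact add_nonneg ih (mul_nonneg (hm i) (sub_nonneg.2 (hmono (Fin.castSucc_le_succ i))))

lemma den_pos {θ : ℝ} (hθ : 0 ≤ θ) {m : Fin r → ℝ} (hm : ∀ i, 0 ≤ m i) {P : El r}
    (hmono : Monotone P.v) (hle : P.v (Fin.last r) ≤ P.s) (p : Fin (r + 1)) : 0 < den θ m P p :=
  add_pos_of_pos_of_nonneg one_pos (mul_nonneg hθ (eig_nonneg hm hmono hle p))

lemma den_castSucc (θ : ℝ) (m : Fin r → ℝ) (P : El r) (i : Fin r) :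
    den θ m P i.castSucc = den θ m P i.succ + θ * (m i * inc P.v i) := by
  simp only [den, eig_castSucc]; ring

lemma upMass_tail (m : Fin (r + 1) → ℝ) (p : Fin (r + 1)) :
    El.upMass (Fin.tail m) p = El.upMass m p.succ := by
  cases p using Fin.lastCases with
  | last => simp [El.upMass, Fin.succ_last]
  | cast i => simp [El.upMass, Fin.tail, ← Fin.castSucc_succ]

lemma eig_tail (m : Fin (r + 1) → ℝ) (P : El (r + 1)) (p : Fin (r + 1)) :
    El.eig (Fin.tail m) (tailEl P) p = El.eig m P p.succ := by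
  have h : ∀ l : Fin (r + 1), (if p < l then weight (Fin.tail m) l * Fin.tail P.v l else 0) =
      if p.succ < l.succ then weight m l.succ * P.v l.succ else 0 := fun l => by
    simp only [Fin.succ_lt_succ_iff]
    split_ifs with hl
    · obtain ⟨j, rfl⟩ : ∃ j : Fin r, l = j.succ := by
        refine ⟨l.pred (fun e => ?_), (Fin.succ_pred _ _).symm⟩
        rw [e] at hl
        exact absurd hl (Fin.not_lt_zero p)
      simp only [weight, Fin.tail, Fin.cons_succ]
      have hs := upMass_tail m j.succ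
      simp only [El.upMass] at hs
      rw [← hs]
    · rfl
  have h0 : ¬ p.succ < (0 : Fin (r + 2)) := Fin.not_lt_zero _
  simp only [El.eig, tailEl, h, upMass_tail, Fin.sum_univ_succ
    (f := fun l => if p.succ < l then weight m l * P.v l else 0), if_neg h0, zero_add]
  rfl

lemma den_tail (θ : ℝ) (m : Fin (r + 1) → ℝ) (P : El (r + 1)) (p : Fin (r + 1)) :
    den θ (Fin.tail m) (tailEl P) p = den θ m P p.succ := by
  simp only [den, eig_tail]

lemma inc_tail (P : El (r + 1)) (i : Fin r) : inc (tailEl P).v i = inc P.v i.succ := by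
  simp [inc, tailEl, Fin.tail, Fin.castSucc_succ]

lemma dinc_tail (θ : ℝ) (m : Fin (r + 1) → ℝ) (P : El (r + 1)) (i : Fin r) :
    dinc θ (Fin.tail m) (tailEl P) i = dinc θ m P i.succ := by
  simp only [dinc, den_tail, inc_tail, Fin.castSucc_succ]

lemma dtop_tail (θ : ℝ) (m : Fin (r + 1) → ℝ) (P : El (r + 1)) :
    dtop θ (Fin.tail m) (tailEl P) = dtop θ m P := by
  simp only [dtop, den_tail, Fin.succ_last]
  simp [tailEl, Fin.tail, Fin.succ_last]

section Damp

variable {θ : ℝ} {m : Fin r → ℝ} {P : El r}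

lemma dampF_sub {a b : ℝ} (ha : 1 + θ * a ≠ 0) (hb : 1 + θ * b ≠ 0) :
    dampF θ a - dampF θ b = (a - b) / ((1 + θ * a) * (1 + θ * b)) := by
  simp only [dampF]
  rw [div_sub_div _ _ ha hb]
  congr 1
  ring

lemma dampEl_sub (hθ : 0 ≤ θ) (hm : ∀ i, 0 < m i) (hmono : Monotone P.v)
    (hle : P.v (Fin.last r) ≤ P.s) (i : Fin r) :
    (dampF θ (El.eig m P i.castSucc) - dampF θ (El.eig m P i.succ)) / m i = dinc θ m P i := by
  have hd := den_pos hθ (fun i => (hm i).le) hmono hle
  rw [dampF_sub (hd i.castSucc).ne' (hd i.succ).ne', eig_castSucc, dinc, den, den, eig_castSucc,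
    add_sub_cancel_left]
  field_simp [(hm i).ne']

lemma dampEl_zero : (dampEl m θ P).v 0 = P.v 0 / den θ m P 0 ^ 2 := by
  simp only [dampEl, El.calc', Fin.val_zero, Nat.not_lt_zero, if_false, Finset.sum_const_zero,
    add_zero, dampF1, den]
  ring

lemma dampEl_inc (hθ : 0 ≤ θ) (hm : ∀ i, 0 < m i) (hmono : Monotone P.v)
    (hle : P.v (Fin.last r) ≤ P.s) (i : Fin r) :
    inc (dampEl m θ P).v i = dinc θ m P i := by
  have h : ∀ j : Fin r, ∀ x : ℝ, ((if j.val < i.succ.val then x else 0) -
      if j.val < i.castSucc.val then x else 0) = if j = i then x else 0 := fun j x => by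
    by_cases h1 : j = i
    · subst h1; simp
    · have h1' : (j : ℕ) ≠ i := fun e => h1 (Fin.ext e)
      simp only [if_neg h1, Fin.val_succ, Fin.val_castSucc]
      rw [if_congr (show (j : ℕ) < i + 1 ↔ (j : ℕ) < i by omega) rfl rfl, sub_self]
  simp only [inc, dampEl, El.calc', add_sub_add_left_eq_sub, ← Finset.sum_sub_distrib, h,
    Finset.sum_ite_eq', Finset.mem_univ, if_true]
  exact dampEl_sub hθ hm hmono hle i

lemma dampEl_top (hθ : 0 ≤ θ) (hm : ∀ i, 0 < m i) (hmono : Monotone P.v)
    (hle : P.v (Fin.last r) ≤ P.s) :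
    (dampEl m θ P).s - (dampEl m θ P).v (Fin.last r) = dtop θ m P := by
  simp only [dampEl, El.calc', Fin.val_last, Fin.is_lt, if_true, dtop, den, dampF, eig_last]
  ring

end Damp

end Vale.Agent.P166.Haar2.CascValue
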