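import Vale.Agent.P166.Haar2.CascValue.Tilt
import Vale.Agent.P166.Haar2.CascValue.Eig
import Vale.Agent.P166.Haar2.Sys
import Vale.Agent.P157.Parisi.Site.Main

/-!
The recursion of a damped weight of Gaussian coordinates on a cascade, level by level.
-/

noncomputable section

open MeasureTheory ProbabilityTheory
open scoped BigOperators

namespace Vale.Agent.P166.Haar2.CascValue

open Vale.Agent.P157 (gam)
open Vale.Agent.P157.Parisi (level layer)
open Vale.Agent.P157.Parisi.Site (Grow spread spread_cosh grow_logCosh)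
open Vale.Agent.P157.Parisi.Full (logCosh)
open Vale.Agent.P168 (genNested)

variable {D : Type} [Fintype D]

/-- The constant of a coordinate. -/
def cst {r : ℕ} (θ β γ : ℝ) (m : Fin r → ℝ) (P : El r) : ℝ :=
  -(1 / 2) * (Real.log (den θ m P (Fin.last r)) + ∑ i : Fin r,
      (Real.log (den θ m P i.castSucc) - Real.log (den θ m P i.succ)) / m i) +
    γ ^ 2 / 2 * (dtop θ m P + ∑ i, m i * dinc θ m P i) + β ^ 2 / 2 * dtop θ m P

/-- The part of the value carried by a coordinate. -/
def coordPot {r : ℕ} (θ β γ : ℝ) (m : Fin r → ℝ) (P : El r) (x : ℝ) : ℝ :=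
  cst θ β γ m P - θ * x ^ 2 / (2 * den θ m P 0) + γ * x / den θ m P 0

/-- The weight. -/
def wgtX (θ β γ : D → ℝ) (z : D → ℝ) : ℝ :=
  Real.exp (∑ d, (-(θ d * z d ^ 2) / 2 + γ d * z d)) * Real.cosh (∑ d, β d * z d)

lemma exp_tiltConst {u δ γ x : ℝ} (hu : 0 ≤ u) (hδ : 0 ≤ δ) :
    tiltConst u δ γ x = Real.exp (-(u * x ^ 2) / (2 * (1 + u * δ)) + γ * x / (1 + u * δ) +
      γ ^ 2 * δ / (2 * (1 + u * δ)) - Real.log (1 + u * δ) / 2) := by
  have hd : 0 < 1 + u * δ := by positivity
  rw [tiltConst, Real.exp_sub, ← Real.log_sqrt hd.le, Real.exp_log (Real.sqrt_pos.2 hd)]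

lemma coordPot_nil {θ β γ : ℝ} (hθ : 0 ≤ θ) {m : Fin 0 → ℝ} {P : El 0}
    (hle : P.v (Fin.last 0) ≤ P.s) (x : ℝ) :
    coordPot θ β γ m P x = -(θ * x ^ 2) / (2 * (1 + θ * (P.s - P.v (Fin.last 0)))) +
      γ * x / (1 + θ * (P.s - P.v (Fin.last 0))) +
      γ ^ 2 * (P.s - P.v (Fin.last 0)) / (2 * (1 + θ * (P.s - P.v (Fin.last 0)))) -
      Real.log (1 + θ * (P.s - P.v (Fin.last 0))) / 2 +
      β ^ 2 * (P.s - P.v (Fin.last 0)) / (1 + θ * (P.s - P.v (Fin.last 0))) / 2 := by
  have e0 : den θ m P (Fin.last 0) = 1 + θ * (P.s - P.v (Fin.last 0)) := by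
    rw [den, eig_last]
  have h0 : (0 : Fin 1) = Fin.last 0 := rfl
  simp only [coordPot, cst, dtop, h0, e0, Finset.univ_eq_empty, Finset.sum_empty, add_zero]
  simp only [div_mul_eq_div_div]
  ring

lemma coordPot_succ {r : ℕ} {θ β γ : ℝ} (hθ : 0 ≤ θ) {m : Fin (r + 1) → ℝ} (hm : ∀ i, 0 < m i)
    {P : El (r + 1)} (hmono : Monotone P.v) (hle : P.v (Fin.last (r + 1)) ≤ P.s) (x : ℝ) :
    let d1 := den θ m P (Fin.succ 0)
    let e := 1 + m 0 * θ / d1 * inc P.v 0
    m 0 * coordPot θ β γ m P x = m 0 * cst θ β γ (Fin.tail m) (tailEl P) +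
      (-(m 0 * θ / d1 * x ^ 2) / (2 * e) + m 0 * γ / d1 * x / e +
        (m 0 * γ / d1) ^ 2 * inc P.v 0 / (2 * e) - Real.log e / 2) := by
  intro d1 e
  have hd := den_pos hθ (fun i => (hm i).le) hmono hle
  have h1 := hd (Fin.succ 0)
  have h0 := hd 0
  have he : e = den θ m P 0 / den θ m P (Fin.succ 0) := by
    have := den_castSucc θ m P 0
    rw [Fin.castSucc_zero] at this
    simp only [e, d1]
    rw [this]
    field_simp
  have hm0 := hm 0
  simp only [coordPot, cst, dtop_tail, dinc_tail, den_tail, Fin.succ_last, Fin.sum_univ_succ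
    (f := fun i => (Real.log (den θ m P i.castSucc) - Real.log (den θ m P i.succ)) / m i),
    Fin.sum_univ_succ (f := fun i => m i * dinc θ m P i), Fin.castSucc_zero, Fin.castSucc_succ,
    Fin.tail, he, d1]
  rw [Real.log_div h0.ne' h1.ne']
  simp only [dinc, Fin.castSucc_zero, Fin.castSucc_succ]
  field_simp
  ring

/-- The nested mean of the weight, in closed form. -/
theorem genNested_wgtX (θ β γ : D → ℝ) (hθ : ∀ d, 0 ≤ θ d) (hβγ : ∀ d, β d * γ d = 0) :
    ∀ {r : ℕ} {m : Fin r → ℝ}, (∀ i, 0 < m i) → ∀ (P : D → El r),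
      (∀ d, Monotone (P d).v ∧ (P d).v (Fin.last r) ≤ (P d).s) → ∀ (ρ : Fin (r + 1) → ℝ),
      (∀ i, inc ρ i = ∑ d, β d ^ 2 * dinc (θ d) m (P d) i) → ∀ x : D → ℝ,
      genNested (gam D) m (fun η => ∫ e, wgtX θ β γ (fun d => x d +
          (∑ p : Fin r, Real.sqrt (inc (P d).v p) * η p d) +
          Real.sqrt ((P d).s - (P d).v (Fin.last r)) * e d) ∂gam D) =
        Real.exp ((∑ d, coordPot (θ d) (β d) (γ d) m (P d) (x d)) +
          level m ρ logCosh 0 (∑ d, β d * x d / den (θ d) m (P d) 0)) := by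
  intro r
  induction r with
  | zero =>
    intro m _ P hP ρ _ x
    have hδ : ∀ d, 0 ≤ (P d).s - (P d).v (Fin.last 0) := fun d => sub_nonneg.2 (hP d).2
    have key := integral_tilt_form θ (fun d => (P d).s - (P d).v (Fin.last 0)) γ β x hθ hδ hβγ
      Real.continuous_cosh.measurable
    have e1 : ∀ e : D → ℝ, wgtX θ β γ (fun d => x d +
        (∑ p : Fin 0, Real.sqrt (inc (P d).v p) * (Fin.elim0 p : D → ℝ) d) +
        Real.sqrt ((P d).s - (P d).v (Fin.last 0)) * e d) =
        (∏ d, tiltW (θ d) ((P d).s - (P d).v (Fin.last 0)) (γ d) (x d) (e d)) *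
          Real.cosh (∑ d, β d * (x d + Real.sqrt ((P d).s - (P d).v (Fin.last 0)) * e d)) :=
      fun e => by
        simp only [wgtX, tiltW, Real.exp_sum, Finset.univ_eq_empty, Finset.sum_empty, add_zero]
    have hv : 0 ≤ ∑ d, β d ^ 2 * ((P d).s - (P d).v (Fin.last 0)) /
        (1 + θ d * ((P d).s - (P d).v (Fin.last 0))) := Finset.sum_nonneg fun d _ =>
      div_nonneg (mul_nonneg (sq_nonneg _) (hδ d)) (by have := hθ d; have := hδ d; positivity)
    show ∫ e, wgtX θ β γ _ ∂gam D = _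
    simp only [e1, key, spread_cosh hv, level]
    rw [Finset.prod_congr rfl fun d _ => exp_tiltConst (hθ d) (hδ d), ← Real.exp_sum, ← mul_assoc,
      ← Real.exp_add]
    conv_rhs => rw [Real.exp_add]
    have hden : ∀ d, den (θ d) m (P d) 0 = 1 + θ d * ((P d).s - (P d).v (Fin.last 0)) := fun d => by
      rw [show (0 : Fin 1) = Fin.last 0 from rfl, den, eig_last]
    simp only [hden, logCosh, Real.exp_log (Real.cosh_pos _)]
    congr 2
    rw [Finset.sum_div, ← Finset.sum_add_distrib]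
    exact Finset.sum_congr rfl fun d _ => (coordPot_nil (hθ d) (hP d).2 (x d)).symm
  | succ r ih =>
    intro m hm P hP ρ hρ x
    have hd : ∀ d p, 0 < den (θ d) m (P d) p := fun d =>
      den_pos (hθ d) (fun i => (hm i).le) (hP d).1 (hP d).2
    set δ : D → ℝ := fun d => inc (P d).v 0
    have hδ : ∀ d, 0 ≤ δ d := fun d => sub_nonneg.2 ((hP d).1 (Fin.castSucc_le_succ 0))
    set d1 : D → ℝ := fun d => den (θ d) m (P d) (Fin.succ 0) with hd1
    obtain ⟨A, hL⟩ := Grow.level (m := Fin.tail m) (fun i => hm _) (Fin.tail ρ) grow_logCosh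
    change Grow A (level (Fin.tail m) (Fin.tail ρ) logCosh 0) at hL
    set F1 := level (Fin.tail m) (Fin.tail ρ) logCosh 0 with hF1
    set C := ∑ d, cst (θ d) (β d) (γ d) (Fin.tail m) (tailEl (P d)) with hC
    have hin : ∀ b : D → ℝ, genNested (gam D) (Fin.tail m) (fun η => ∫ e, wgtX θ β γ (fun d => x d +
        (∑ p : Fin (r + 1), Real.sqrt (inc (P d).v p) *
          (Fin.cons b η : Fin (r + 1) → D → ℝ) p d) +
        Real.sqrt ((P d).s - (P d).v (Fin.last (r + 1))) * e d) ∂gam D) ^ m 0 =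
        Real.exp (m 0 * C) * ((∏ d, tiltW (m 0 * θ d / d1 d) (δ d) (m 0 * γ d / d1 d) (x d) (b d)) *
          Real.exp (m 0 * F1 (∑ d, β d / d1 d * (x d + Real.sqrt (δ d) * b d)))) := by
      intro b
      have hP' : ∀ d, Monotone (tailEl (P d)).v ∧ (tailEl (P d)).v (Fin.last r) ≤ (tailEl (P d)).s :=
        fun d => ⟨fun i j h => (hP d).1 (Fin.succ_le_succ_iff.2 h),
          by simpa [tailEl, Fin.tail, Fin.succ_last] using (hP d).2⟩
      have hρ' : ∀ i, inc (Fin.tail ρ) i =
          ∑ d, β d ^ 2 * dinc (θ d) (Fin.tail m) (tailEl (P d)) i := fun i => by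
        simp only [dinc_tail, ← hρ i.succ]
        simp [inc, Fin.tail, Fin.castSucc_succ]
      have h := ih (m := Fin.tail m) (fun i => hm _) (fun d => tailEl (P d)) hP' (Fin.tail ρ) hρ'
        (fun d => x d + Real.sqrt (δ d) * b d)
      have earg : ∀ (η : Fin r → D → ℝ) (e : D → ℝ),
          (fun d => x d + (∑ p : Fin (r + 1), Real.sqrt (inc (P d).v p) *
            (Fin.cons b η : Fin (r + 1) → D → ℝ) p d) +
            Real.sqrt ((P d).s - (P d).v (Fin.last (r + 1))) * e d) =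
          fun d => x d + Real.sqrt (δ d) * b d +
            (∑ p : Fin r, Real.sqrt (inc (tailEl (P d)).v p) * η p d) +
            Real.sqrt ((tailEl (P d)).s - (tailEl (P d)).v (Fin.last r)) * e d := fun η e => by
        funext d
        simp only [Fin.sum_univ_succ, Fin.cons_zero, Fin.cons_succ, inc_tail, δ]
        simp only [tailEl, Fin.tail, Fin.succ_last, add_assoc]
      simp only [earg, h, ← Real.exp_mul, tiltW, ← Real.exp_sum, ← Real.exp_add, den_tail]
      congr 1
      have earg2 : (∑ d, β d * (x d + Real.sqrt (δ d) * b d) / den (θ d) m (P d) (Fin.succ 0)) =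
          ∑ d, β d / d1 d * (x d + Real.sqrt (δ d) * b d) :=
        Finset.sum_congr rfl fun d _ => by simp only [hd1]; ring
      rw [earg2, add_mul, mul_comm _ (m 0), mul_comm _ (m 0), hC, Finset.mul_sum, Finset.mul_sum,
        ← add_assoc, ← Finset.sum_add_distrib]
      congr 1
      refine Finset.sum_congr rfl fun d _ => ?_
      simp only [coordPot, den_tail, hd1]
      ring
    have hu : ∀ d, 0 ≤ m 0 * θ d / d1 d := fun d =>
      div_nonneg (mul_nonneg (hm 0).le (hθ d)) (hd d _).le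
    have key := integral_tilt_form (fun d => m 0 * θ d / d1 d) δ (fun d => m 0 * γ d / d1 d)
      (fun d => β d / d1 d) x hu hδ
      (fun d => by
        rw [show β d / d1 d * (m 0 * γ d / d1 d) = m 0 / (d1 d * d1 d) * (β d * γ d) by ring,
          hβγ, mul_zero])
      (F := fun y => Real.exp (m 0 * F1 y)) (hL.meas.const_mul _).exp
    have hE : ∀ d, 1 + m 0 * θ d / d1 d * δ d = den (θ d) m (P d) 0 / d1 d := fun d => by
      have h1 := (hd d (Fin.succ 0)).ne'
      have := den_castSucc (θ d) m (P d) 0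
      rw [Fin.castSucc_zero] at this
      simp only [hd1, δ, this]
      field_simp
    have eV : ∑ d, (β d / d1 d) ^ 2 * δ d / (1 + m 0 * θ d / d1 d * δ d) = ρ 1 - ρ 0 := by
      have h := hρ 0
      simp only [inc, Fin.castSucc_zero, Fin.succ_zero_eq_one] at h
      rw [h]
      refine Finset.sum_congr rfl fun d _ => ?_
      have h1 := (hd d (Fin.succ 0)).ne'
      rw [hE]
      simp only [hd1, δ, dinc, Fin.castSucc_zero]
      field_simp
    have ea : ∑ d, β d / d1 d * x d / (1 + m 0 * θ d / d1 d * δ d) =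
        ∑ d, β d * x d / den (θ d) m (P d) 0 := Finset.sum_congr rfl fun d _ => by
      have h1 := (hd d (Fin.succ 0)).ne'
      rw [hE]
      simp only [hd1]
      field_simp
    set a := ∑ d, β d * x d / den (θ d) m (P d) 0 with ha
    set I := ∫ g, Real.exp (m 0 * F1 (a + Real.sqrt (ρ 1 - ρ 0) * g)) ∂gaussianReal 0 1 with hI
    have hI1 : 1 ≤ I := hL.one_le (hm 0).le a _
    have hlev : level m ρ logCosh 0 a = 1 / m 0 * Real.log I := rfl
    rw [hlev]
    show (∫ b, genNested (gam D) (Fin.tail m) (fun η => ∫ e, wgtX θ β γ (fun d => x d +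
        (∑ p : Fin (r + 1), Real.sqrt (inc (P d).v p) *
          (Fin.cons b η : Fin (r + 1) → D → ℝ) p d) +
        Real.sqrt ((P d).s - (P d).v (Fin.last (r + 1))) * e d) ∂gam D) ^ m 0 ∂gam D) ^
          (1 / m 0) = _
    simp only [hin, integral_const_mul]
    rw [key, eV, ea]
    simp only [spread, ← hI]
    rw [Finset.prod_congr rfl fun d _ => exp_tiltConst (hu d) (hδ d), ← Real.exp_sum, ← mul_assoc,
      ← Real.exp_add]
    conv_lhs => rw [← Real.exp_log (zero_lt_one.trans_le hI1)]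
    rw [← Real.exp_add, ← Real.exp_mul]
    congr 1
    rw [hC, Finset.mul_sum, ← Finset.sum_add_distrib]
    have : ∀ d, m 0 * cst (θ d) (β d) (γ d) (Fin.tail m) (tailEl (P d)) +
        (-(m 0 * θ d / d1 d * x d ^ 2) / (2 * (1 + m 0 * θ d / d1 d * δ d)) +
          m 0 * γ d / d1 d * x d / (1 + m 0 * θ d / d1 d * δ d) +
          (m 0 * γ d / d1 d) ^ 2 * δ d / (2 * (1 + m 0 * θ d / d1 d * δ d)) -
          Real.log (1 + m 0 * θ d / d1 d * δ d) / 2) =
        m 0 * coordPot (θ d) (β d) (γ d) m (P d) (x d) :=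
      fun d => (coordPot_succ (hθ d) hm (hP d).1 (hP d).2 (x d)).symm
    rw [Finset.sum_congr rfl fun d _ => this d, ← Finset.mul_sum]
    field_simp [(hm 0).ne']

end Vale.Agent.P166.Haar2.CascValue
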