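import Vale.Agent.P157.Full.GaussForm

/-!
Exponentials of concave quadratics against independent Gaussian coordinates.
-/

noncomputable section

open MeasureTheory ProbabilityTheory
open scoped BigOperators NNReal ENNReal

namespace Vale.Agent.P166.Haar2.CascValue

open Vale.Agent.P157 (gam dot)
open Vale.Agent.P157.Parisi.Site (spread)

/-- A product density on a product of probability measures. -/
lemma pi_withDensity {ι : Type*} [Fintype ι] (μ : ι → Measure ℝ) [∀ i, IsProbabilityMeasure (μ i)]
    (f : ι → ℝ → ℝ≥0∞) (hf : ∀ i, Measurable (f i))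
    [∀ i, IsProbabilityMeasure ((μ i).withDensity (f i))] :
    (Measure.pi μ).withDensity (fun x => ∏ i, f i (x i)) =
      Measure.pi fun i => (μ i).withDensity (f i) := by
  refine (Measure.pi_eq fun s hs => ?_).symm
  have hm : MeasurableSet (Set.pi Set.univ s) := MeasurableSet.univ_pi hs
  rw [withDensity_apply _ hm, ← lintegral_indicator hm]
  have e : ∀ x : ι → ℝ, (Set.pi Set.univ s).indicator (fun x => ∏ i, f i (x i)) x =
      ∏ i, (s i).indicator (f i) (x i) := fun x => by
    by_cases hx : x ∈ Set.pi Set.univ s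
    · rw [Set.indicator_of_mem hx]
      exact Finset.prod_congr rfl fun i _ => (Set.indicator_of_mem (hx i (Set.mem_univ i)) _).symm
    · rw [Set.indicator_of_notMem hx]
      simp only [Set.mem_pi, Set.mem_univ, true_implies, not_forall] at hx
      obtain ⟨i, hi⟩ := hx
      exact (Finset.prod_eq_zero (Finset.mem_univ i) (Set.indicator_of_notMem hi _)).symm
  simp only [e]
  have hX : ∀ i, Measurable ((s i).indicator (f i)) := fun i => (hf i).indicator (hs i)
  refine (lintegral_prod_eq_prod_lintegral_of_indepFun Finset.univ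
    (fun i (x : ι → ℝ) => (s i).indicator (f i) (x i))
    (iIndepFun_pi (μ := μ) fun i => (hX i).aemeasurable)
    fun i => (hX i).comp (measurable_pi_apply i)).trans ?_
  refine Finset.prod_congr rfl fun i _ => ?_
  rw [(measurePreserving_eval μ i).lintegral_comp (hX i), lintegral_indicator (hs i),
    withDensity_apply _ (hs i)]

/-- The constant of a damped linear tilt. -/
def tiltConst (u δ γ x : ℝ) : ℝ :=
  Real.exp (-(u * x ^ 2) / (2 * (1 + u * δ)) + γ * x / (1 + u * δ) +
    γ ^ 2 * δ / (2 * (1 + u * δ))) / Real.sqrt (1 + u * δ)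

/-- The mean left by a damped linear tilt. -/
def tiltMean (u δ γ x : ℝ) : ℝ := (γ - u * x) * Real.sqrt δ / (1 + u * δ)

/-- The damped linear tilt. -/
def tiltW (u δ γ x g : ℝ) : ℝ :=
  Real.exp (-(u * (x + Real.sqrt δ * g) ^ 2) / 2 + γ * (x + Real.sqrt δ * g))

variable {u δ γ x : ℝ}

lemma tiltConst_pos (hu : 0 ≤ u) (hδ : 0 ≤ δ) : 0 < tiltConst u δ γ x :=
  div_pos (Real.exp_pos _) (Real.sqrt_pos.2 (by positivity))

lemma measurable_tiltW : Measurable (tiltW u δ γ x) := by unfold tiltW; fun_prop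

lemma withDensity_tilt (hu : 0 ≤ u) (hδ : 0 ≤ δ) :
    (gaussianReal 0 1).withDensity (fun g => ENNReal.ofReal (tiltW u δ γ x g / tiltConst u δ γ x)) =
      gaussianReal (tiltMean u δ γ x) (1 / (1 + u * δ)).toNNReal := by
  have hd : 0 < 1 + u * δ := by positivity
  have hv : (1 / (1 + u * δ)).toNNReal ≠ 0 := by
    rw [ne_eq, Real.toNNReal_eq_zero, not_le]; positivity
  rw [gaussianReal_of_var_ne_zero _ one_ne_zero, gaussianReal_of_var_ne_zero _ hv,
    ← withDensity_mul _ (measurable_gaussianPDF 0 1) (measurable_tiltW.div_const _).ennreal_ofReal]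
  congr 1
  funext g
  simp only [Pi.mul_apply, gaussianPDF]
  rw [← ENNReal.ofReal_mul (gaussianPDFReal_nonneg _ _ _)]
  congr 1
  simp only [gaussianPDFReal, Real.coe_toNNReal _ (one_div_pos.2 hd).le, NNReal.coe_one, mul_one,
    sub_zero]
  have hs : (Real.sqrt (2 * Real.pi * (1 / (1 + u * δ))))⁻¹ =
      Real.sqrt (1 + u * δ) * (Real.sqrt (2 * Real.pi))⁻¹ := by
    rw [Real.sqrt_mul (by positivity), one_div, Real.sqrt_inv, mul_inv, inv_inv, mul_comm]
  rw [hs]
  have he : -g ^ 2 / 2 + (-(u * (x + Real.sqrt δ * g) ^ 2) / 2 + γ * (x + Real.sqrt δ * g)) =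
      (-(u * x ^ 2) / (2 * (1 + u * δ)) + γ * x / (1 + u * δ) +
          γ ^ 2 * δ / (2 * (1 + u * δ))) +
        -(g - tiltMean u δ γ x) ^ 2 / (2 * (1 / (1 + u * δ))) := by
    obtain ⟨t, ht, rfl⟩ : ∃ t : ℝ, t = Real.sqrt δ ∧ δ = t * t :=
      ⟨Real.sqrt δ, rfl, (Real.mul_self_sqrt hδ).symm⟩
    simp only [tiltMean, ← ht]
    field_simp
    ring
  have h0 : Real.sqrt (1 + u * δ) ≠ 0 := (Real.sqrt_pos.2 hd).ne'
  simp only [tiltW, tiltConst]
  rw [mul_div_assoc', mul_assoc, ← Real.exp_add, he, Real.exp_add]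
  field_simp

variable {ι : Type*} [Fintype ι]

/-- The mean of a function of a linear form under independent damped linear tilts. -/
lemma integral_tilt_form (u δ γ β x : ι → ℝ) (hu : ∀ i, 0 ≤ u i) (hδ : ∀ i, 0 ≤ δ i)
    (hβγ : ∀ i, β i * γ i = 0) {F : ℝ → ℝ} (hF : Measurable F) :
    ∫ g, (∏ i, tiltW (u i) (δ i) (γ i) (x i) (g i)) *
        F (∑ i, β i * (x i + Real.sqrt (δ i) * g i)) ∂gam ι =
      (∏ i, tiltConst (u i) (δ i) (γ i) (x i)) *
        spread (∑ i, β i ^ 2 * δ i / (1 + u i * δ i)) F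
          (∑ i, β i * x i / (1 + u i * δ i)) := by
  set d : ι → ℝ → ℝ≥0∞ := fun i g =>
    ENNReal.ofReal (tiltW (u i) (δ i) (γ i) (x i) g / tiltConst (u i) (δ i) (γ i) (x i)) with hdd
  have hdm : ∀ i, Measurable (d i) := fun i => (measurable_tiltW.div_const _).ennreal_ofReal
  haveI : ∀ i, IsProbabilityMeasure ((gaussianReal 0 1).withDensity (d i)) := fun i => by
    simp only [hdd]; rw [withDensity_tilt (hu i) (hδ i)]; infer_instance
  have hmap : Measure.pi (fun i => (gaussianReal 0 1).withDensity (d i)) =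
      (gam ι).map fun g i => tiltMean (u i) (δ i) (γ i) (x i) +
        Real.sqrt (1 / (1 + u i * δ i)) * g i := by
    rw [show (fun (g : ι → ℝ) i => tiltMean (u i) (δ i) (γ i) (x i) +
          Real.sqrt (1 / (1 + u i * δ i)) * g i) =
        fun g i => (fun z => tiltMean (u i) (δ i) (γ i) (x i) +
          Real.sqrt (1 / (1 + u i * δ i)) * z) (g i) from rfl,
      gam, Measure.pi_map_pi (f := fun i z => tiltMean (u i) (δ i) (γ i) (x i) +
        Real.sqrt (1 / (1 + u i * δ i)) * z) fun i => (measurable_id.const_mul _ |>.const_add _).aemeasurable]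
    congr 1
    funext i
    simp only [hdd]
    rw [withDensity_tilt (hu i) (hδ i),
      show (fun z => tiltMean (u i) (δ i) (γ i) (x i) + Real.sqrt (1 / (1 + u i * δ i)) * z) =
        (fun z => tiltMean (u i) (δ i) (γ i) (x i) + z) ∘
          fun z => Real.sqrt (1 / (1 + u i * δ i)) * z from rfl,
      ← Measure.map_map (by fun_prop) (by fun_prop), gaussianReal_map_const_mul,
      gaussianReal_map_const_add, mul_zero, zero_add, mul_one]
    congr 1
    rw [Real.toNNReal_of_nonneg (by have := hu i; have := hδ i; positivity)]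
    exact NNReal.eq (Real.sq_sqrt (by have := hu i; have := hδ i; positivity)).symm
  have hpi := pi_withDensity (fun _ : ι => gaussianReal 0 1) d hdm
  rw [hmap] at hpi
  set H : (ι → ℝ) → ℝ := fun g => F (∑ i, β i * (x i + Real.sqrt (δ i) * g i)) with hH
  have hHm : Measurable H := hF.comp (by fun_prop)
  have key : ∫ g, H g ∂(gam ι).withDensity (fun g => ∏ i, d i (g i)) =
      ∫ g, (∏ i, tiltW (u i) (δ i) (γ i) (x i) (g i) /
        tiltConst (u i) (δ i) (γ i) (x i)) * H g ∂gam ι := by
    rw [integral_withDensity_eq_integral_toReal_smul (f := fun g : ι → ℝ => ∏ i, d i (g i))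
      (Finset.measurable_fun_prod _ fun i _ => (hdm i).comp (measurable_pi_apply i))
      (ae_of_all _ fun g => ENNReal.prod_lt_top fun i _ => ENNReal.ofReal_lt_top)]
    refine integral_congr_ae (ae_of_all _ fun g => ?_)
    beta_reduce
    rw [smul_eq_mul, ENNReal.toReal_prod]
    congr 1
    exact Finset.prod_congr rfl fun i _ => ENNReal.toReal_ofReal
      (div_nonneg (Real.exp_pos _).le (tiltConst_pos (hu i) (hδ i)).le)
  rw [gam] at key
  rw [hpi, integral_map (measurable_pi_lambda _ fun i =>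
    ((measurable_pi_apply i).const_mul _).const_add _).aemeasurable hHm.aestronglyMeasurable] at key
  have eL : ∀ g : ι → ℝ, H (fun i => tiltMean (u i) (δ i) (γ i) (x i) +
      Real.sqrt (1 / (1 + u i * δ i)) * g i) =
      F ((∑ i, β i * x i / (1 + u i * δ i)) +
        dot g fun i => β i * Real.sqrt (δ i) * Real.sqrt (1 / (1 + u i * δ i))) := fun g => by
    simp only [hH, dot, ← Finset.sum_add_distrib]
    congr 1
    refine Finset.sum_congr rfl fun i _ => ?_
    have hd : 0 < 1 + u i * δ i := by have := hu i; have := hδ i; positivity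
    have hs := Real.mul_self_sqrt (hδ i)
    simp only [tiltMean]
    field_simp
    linear_combination (x i * 0 + β i * γ i - β i * u i * x i) * hs + δ i * hβγ i
  have hsum : ∑ i, (β i * Real.sqrt (δ i) * Real.sqrt (1 / (1 + u i * δ i))) ^ 2 =
      ∑ i, β i ^ 2 * δ i / (1 + u i * δ i) := Finset.sum_congr rfl fun i _ => by
    rw [mul_pow, mul_pow, Real.sq_sqrt (hδ i),
      Real.sq_sqrt (by have := hu i; have := hδ i; positivity)]
    ring
  simp only [eL] at key
  rw [Vale.Agent.P157.Parisi.Full.integral_form _ hF, hsum] at key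
  rw [key, ← integral_const_mul]
  refine integral_congr_ae (ae_of_all _ fun g => ?_)
  simp only [hH, Finset.prod_div_distrib]
  rw [← mul_assoc, mul_div_cancel₀ _ (Finset.prod_pos fun i _ => tiltConst_pos (hu i) (hδ i)).ne']

end Vale.Agent.P166.Haar2.CascValue
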